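import Vale.Agent.Lib.P254U.CX.Defs

/-!
P254U/CX/Ball: the part `x_0^2 + x_1^2 ≤ r` of the unit ball of `ℝ^4` and `ℝ^6`.
`D_B(r) = ∫_{|z|^2 ≤ r} |{y : |y|^2 ≤ 1 - |z|^2}| dz = ∫_{|z|^2 ≤ r} κ (1 - |z|^2)^(m/2) dz`, `κ = |eball m| = JJ m 0`
(`eball_vol`; `π` for `m = 2`, `π^2/2` for `m = 4`), then polar coordinates in `ℝ^2`
(`integral_comp_polarCoord_symm` or `lintegral_comp_polarCoord_symm`; or compute the volume of the complement).
As `eball ⊆ K`, `DD K r ≥ D_B(r)`.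
-/

open MeasureTheory Set
open scoped Pointwise

namespace Vale.Agent.P254U

theorem cxb_eball {m : ℕ} (hm : 1 ≤ m) : volume (eball m) = ENNReal.ofReal (JJ m 0) := by
  have h := eball_vol hm
  have hne : volume (eball m) ≠ ⊤ := by
    intro h'
    rw [h'] at h
    have := JJ_pos m (le_refl (0 : ℝ))
    simp only [ENNReal.toReal_top] at h
    linarith
  rw [← h, ENNReal.ofReal_toReal hne]

theorem cxb_V {m : ℕ} (hm : 1 ≤ m) {t : ℝ} (ht : 0 ≤ t) :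
    volume {y : Fin m → ℝ | ∑ i, y i ^ 2 ≤ t} = ENNReal.ofReal (Real.sqrt t ^ m * JJ m 0) := by
  have hset : {y : Fin m → ℝ | ∑ i, y i ^ 2 ≤ t} = Real.sqrt t • eball m := by
    rcases ht.eq_or_lt with h0 | h0
    · subst h0
      ext y
      rw [Real.sqrt_zero, Set.zero_smul_set ⟨0, by simp [eball]⟩]
      simp only [Set.mem_ofPred_eq, Set.mem_zero]
      constructor
      · intro h
        have h1 : ∑ i, y i ^ 2 = 0 := le_antisymm h (Finset.sum_nonneg fun i _ => sq_nonneg _)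
        rw [Finset.sum_eq_zero_iff_of_nonneg (fun i _ => sq_nonneg _)] at h1
        funext i
        simpa using h1 i (Finset.mem_univ i)
      · rintro rfl
        simp
    · have hs : 0 < Real.sqrt t := Real.sqrt_pos.2 h0
      ext y
      rw [Set.mem_smul_set_iff_inv_smul_mem₀ hs.ne']
      simp only [eball, Set.mem_ofPred_eq, Pi.smul_apply, smul_eq_mul, mul_pow, ← Finset.mul_sum,
        inv_pow, Real.sq_sqrt ht]
      rw [inv_mul_le_iff₀ h0, mul_one]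
  rw [hset, Measure.addHaar_smul, cxb_eball hm, ← ENNReal.ofReal_mul (abs_nonneg _),
    abs_of_nonneg (by positivity)]
  simp

theorem cxb_J2 : JJ 2 0 = Real.pi := by
  unfold JJ
  have h1 : ((0 : ℝ) + 1) / 2 = 1 / 2 := by norm_num
  have h2 : (((2 : ℕ) : ℝ) - 1) / 2 = 1 / 2 := by norm_num
  have h3 : (((2 : ℕ) : ℝ) + 0) / 2 + 1 = 2 := by norm_num
  rw [h1, h2, h3, Real.Gamma_one_half_eq, Real.Gamma_two, div_one, ← Real.sqrt_eq_rpow,
    Real.mul_self_sqrt Real.pi_pos.le]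

theorem cxb_J4 : JJ 4 0 = Real.pi ^ 2 / 2 := by
  unfold JJ
  have h1 : ((0 : ℝ) + 1) / 2 = 1 / 2 := by norm_num
  have h2 : (((4 : ℕ) : ℝ) - 1) / 2 = 3 / 2 := by norm_num
  have h3 : (((4 : ℕ) : ℝ) + 0) / 2 + 1 = ((2 : ℕ) : ℝ) + 1 := by norm_num
  rw [h1, h2, h3, Real.Gamma_one_half_eq, Real.Gamma_nat_eq_factorial, Real.sqrt_eq_rpow,
    ← Real.rpow_add Real.pi_pos]
  norm_num [Nat.factorial]

theorem cxb_split {m : ℕ} (e : Fin 2 ⊕ Fin m ≃ Fin (m + 2)) (h0 : e (Sum.inl 0) = 0)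
    (h1 : e (Sum.inl 1) = 1) (r : ℝ) :
    volume {x : Fin (m + 2) → ℝ | ∑ i, x i ^ 2 ≤ 1 ∧ x 0 ^ 2 + x 1 ^ 2 ≤ r} =
      volume {p : (Fin 2 → ℝ) × (Fin m → ℝ) |
        ∑ i, p.1 i ^ 2 + ∑ i, p.2 i ^ 2 ≤ 1 ∧ ∑ i, p.1 i ^ 2 ≤ r} := by
  have hA := volume_measurePreserving_sumPiEquivProdPi_symm (fun _ : Fin 2 ⊕ Fin m => ℝ)
  have hB := volume_measurePreserving_piCongrLeft (fun _ : Fin (m + 2) => ℝ) e
  have hC := hB.comp hA
  have hE : MeasurableSet {x : Fin (m + 2) → ℝ | ∑ i, x i ^ 2 ≤ 1 ∧ x 0 ^ 2 + x 1 ^ 2 ≤ r} := by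
    have a : MeasurableSet {x : Fin (m + 2) → ℝ | ∑ i, x i ^ 2 ≤ 1} :=
      measurableSet_le (by fun_prop) (by fun_prop)
    have b : MeasurableSet {x : Fin (m + 2) → ℝ | x 0 ^ 2 + x 1 ^ 2 ≤ r} :=
      measurableSet_le (by fun_prop) (by fun_prop)
    exact a.inter b
  rw [← hC.measure_preimage hE.nullMeasurableSet]
  congr 1
  ext ⟨z, y⟩
  simp only [Set.mem_preimage, Set.mem_ofPred_eq, Function.comp_apply]
  set w := (MeasurableEquiv.piCongrLeft (fun _ : Fin (m + 2) => ℝ) e)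
    ((MeasurableEquiv.sumPiEquivProdPi (fun _ : Fin 2 ⊕ Fin m => ℝ)).symm (z, y)) with hw
  have hl : ∀ i, w (e (Sum.inl i)) = z i := fun i => by
    rw [hw]
    exact Equiv.piCongrLeft_apply_apply (fun _ : Fin (m + 2) => ℝ) e _ _
  have hr : ∀ i, w (e (Sum.inr i)) = y i := fun i => by
    rw [hw]
    exact Equiv.piCongrLeft_apply_apply (fun _ : Fin (m + 2) => ℝ) e _ _
  have hsum : ∑ i, w i ^ 2 = ∑ i, z i ^ 2 + ∑ i, y i ^ 2 := by
    rw [← Equiv.sum_comp e, Fintype.sum_sum_type]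
    simp only [hl, hr]
  have hz : w 0 ^ 2 + w 1 ^ 2 = ∑ i, z i ^ 2 := by
    rw [Fin.sum_univ_two, ← hl 0, ← hl 1, h0, h1]
  rw [hsum, hz]

theorem cxb_len (r a : ℝ) : volume {s : ℝ | (0 < s ∧ s ≤ r) ∧ a ≤ 1 - s} =
    ENNReal.ofReal (min r (1 - a)) := by
  have : {s : ℝ | (0 < s ∧ s ≤ r) ∧ a ≤ 1 - s} = Ioc 0 (min r (1 - a)) := by
    ext s
    simp only [Set.mem_ofPred_eq, Set.mem_Ioc, le_min_iff]
    constructor
    · rintro ⟨⟨h1, h2⟩, h3⟩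
      exact ⟨h1, h2, by linarith⟩
    · rintro ⟨h1, h2, h3⟩
      exact ⟨⟨h1, h2⟩, by linarith⟩
  rw [this, Real.volume_Ioc, sub_zero]

theorem cxb_disc (t : ℝ) : volume {z : Fin 2 → ℝ | ∑ i, z i ^ 2 ≤ t} =
    ENNReal.ofReal Real.pi * ENNReal.ofReal t := by
  rcases lt_or_ge t 0 with ht | ht
  · have : {z : Fin 2 → ℝ | ∑ i, z i ^ 2 ≤ t} = ∅ := by
      ext z
      simp only [Set.mem_ofPred_eq, Set.mem_empty_iff_false, iff_false, not_le]
      exact lt_of_lt_of_le ht (Finset.sum_nonneg fun i _ => sq_nonneg _)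
    rw [this, measure_empty, ENNReal.ofReal_of_nonpos ht.le, mul_zero]
  · rw [cxb_V (by norm_num) ht, cxb_J2, Real.sq_sqrt ht, mul_comm t,
      ENNReal.ofReal_mul Real.pi_pos.le]

theorem cxb_prod (m : ℕ) (r : ℝ) :
    volume {p : (Fin 2 → ℝ) × (Fin m → ℝ) |
        ∑ i, p.1 i ^ 2 + ∑ i, p.2 i ^ 2 ≤ 1 ∧ ∑ i, p.1 i ^ 2 ≤ r} =
      ENNReal.ofReal Real.pi *
        ∫⁻ s in Ioc 0 r, volume {y : Fin m → ℝ | ∑ i, y i ^ 2 ≤ 1 - s} := by
  have hE : MeasurableSet {p : (Fin 2 → ℝ) × (Fin m → ℝ) |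
        ∑ i, p.1 i ^ 2 + ∑ i, p.2 i ^ 2 ≤ 1 ∧ ∑ i, p.1 i ^ 2 ≤ r} := by
    have a : MeasurableSet {p : (Fin 2 → ℝ) × (Fin m → ℝ) |
        ∑ i, p.1 i ^ 2 + ∑ i, p.2 i ^ 2 ≤ 1} :=
      measurableSet_le (by fun_prop) (by fun_prop)
    have b : MeasurableSet {p : (Fin 2 → ℝ) × (Fin m → ℝ) | ∑ i, p.1 i ^ 2 ≤ r} :=
      measurableSet_le (by fun_prop) (by fun_prop)
    exact a.inter b
  have hA : MeasurableSet {p : ℝ × (Fin m → ℝ) |
        (0 < p.1 ∧ p.1 ≤ r) ∧ ∑ i, p.2 i ^ 2 ≤ 1 - p.1} := by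
    have a : MeasurableSet {p : ℝ × (Fin m → ℝ) | 0 < p.1} :=
      measurableSet_lt (by fun_prop) (by fun_prop)
    have b : MeasurableSet {p : ℝ × (Fin m → ℝ) | p.1 ≤ r} :=
      measurableSet_le (by fun_prop) (by fun_prop)
    have c : MeasurableSet {p : ℝ × (Fin m → ℝ) | ∑ i, p.2 i ^ 2 ≤ 1 - p.1} :=
      measurableSet_le (by fun_prop) (by fun_prop)
    exact (a.inter b).inter c
  have h1 : volume {p : (Fin 2 → ℝ) × (Fin m → ℝ) |
        ∑ i, p.1 i ^ 2 + ∑ i, p.2 i ^ 2 ≤ 1 ∧ ∑ i, p.1 i ^ 2 ≤ r} =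
      ∫⁻ y : Fin m → ℝ, ENNReal.ofReal Real.pi *
        ENNReal.ofReal (min r (1 - ∑ i, y i ^ 2)) := by
    rw [Measure.volume_eq_prod, Measure.prod_apply_symm hE]
    refine lintegral_congr fun y => ?_
    rw [← cxb_disc]
    congr 1
    ext z
    simp only [Set.mem_preimage, Set.mem_ofPred_eq, le_min_iff]
    constructor
    · rintro ⟨h1, h2⟩
      exact ⟨h2, by linarith⟩
    · rintro ⟨h1, h2⟩
      exact ⟨by linarith, h1⟩
  have h2 : volume {p : ℝ × (Fin m → ℝ) | (0 < p.1 ∧ p.1 ≤ r) ∧ ∑ i, p.2 i ^ 2 ≤ 1 - p.1} =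
      ∫⁻ y : Fin m → ℝ, ENNReal.ofReal (min r (1 - ∑ i, y i ^ 2)) := by
    rw [Measure.volume_eq_prod, Measure.prod_apply_symm hA]
    refine lintegral_congr fun y => ?_
    rw [← cxb_len]
    rfl
  have h3 : volume {p : ℝ × (Fin m → ℝ) | (0 < p.1 ∧ p.1 ≤ r) ∧ ∑ i, p.2 i ^ 2 ≤ 1 - p.1} =
      ∫⁻ s in Ioc 0 r, volume {y : Fin m → ℝ | ∑ i, y i ^ 2 ≤ 1 - s} := by
    rw [Measure.volume_eq_prod, Measure.prod_apply hA, ← lintegral_indicator measurableSet_Ioc]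
    refine lintegral_congr fun s => ?_
    by_cases hs : s ∈ Ioc 0 r
    · rw [Set.indicator_of_mem hs]
      congr 1
      ext y
      simp only [Set.mem_preimage, Set.mem_ofPred_eq]
      exact ⟨fun h => h.2, fun h => ⟨hs, h⟩⟩
    · rw [Set.indicator_of_notMem hs]
      convert measure_empty (μ := (volume : Measure (Fin m → ℝ)))
      ext y
      simp only [Set.mem_preimage, Set.mem_ofPred_eq, Set.mem_empty_iff_false, iff_false]
      exact fun h => hs h.1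
  rw [h1, lintegral_const_mul' _ _ ENNReal.ofReal_ne_top, ← h2, h3]

theorem cxb_main {m : ℕ} (hm : 1 ≤ m) (e : Fin 2 ⊕ Fin m ≃ Fin (m + 2)) (h0 : e (Sum.inl 0) = 0)
    (h1 : e (Sum.inl 1) = 1) {K : Set (Fin (m + 2) → ℝ)} (hK : ConvBody (m + 2) K)
    (hB : eball (m + 2) ⊆ K) {r : ℝ} (hr0 : 0 ≤ r) (hr1 : r ≤ 1) (f : ℝ → ℝ) (hf : Continuous f)
    (hf0 : ∀ s, 0 ≤ f s) (hfV : ∀ s, s ≤ 1 → Real.sqrt (1 - s) ^ m * JJ m 0 = f s) :
    Real.pi * (∫ s in (0 : ℝ)..r, f s) ≤ DD K r := by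
  have hv : volume {x : Fin (m + 2) → ℝ | ∑ i, x i ^ 2 ≤ 1 ∧ x 0 ^ 2 + x 1 ^ 2 ≤ r} =
      ENNReal.ofReal (Real.pi * (∫ s in (0 : ℝ)..r, f s)) := by
    rw [cxb_split e h0 h1, cxb_prod, ENNReal.ofReal_mul Real.pi_pos.le,
      intervalIntegral.integral_of_le hr0,
      ofReal_integral_eq_lintegral_ofReal (hf.integrableOn_Ioc) (ae_of_all _ hf0)]
    congr 1
    refine setLIntegral_congr_fun measurableSet_Ioc fun s hs => ?_
    have hs1 : s ≤ 1 := hs.2.trans hr1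
    rw [cxb_V hm (by linarith), hfV s hs1]
  have hsub : {x : Fin (m + 2) → ℝ | ∑ i, x i ^ 2 ≤ 1 ∧ x 0 ^ 2 + x 1 ^ 2 ≤ r} ⊆
      {x | x ∈ K ∧ x 0 ^ 2 + x 1 ^ 2 ≤ r} := fun x hx => ⟨hB hx.1, hx.2⟩
  have hfin : volume {x | x ∈ K ∧ x 0 ^ 2 + x 1 ^ 2 ≤ r} ≠ ⊤ :=
    ne_top_of_le_ne_top hK.compact.measure_lt_top.ne (measure_mono fun x hx => hx.1)
  have hle := ENNReal.toReal_mono hfin (measure_mono hsub)
  rw [hv] at hle
  have hpos : 0 ≤ Real.pi * (∫ s in (0 : ℝ)..r, f s) :=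
    mul_nonneg Real.pi_pos.le (intervalIntegral.integral_nonneg hr0 fun s _ => hf0 s)
  rw [ENNReal.toReal_ofReal hpos] at hle
  exact hle

theorem cx_ball4 {K : Set (Fin (2 + 2) → ℝ)} (hK : ConvBody (2 + 2) K) (hB : eball (2 + 2) ⊆ K)
    {r : ℝ} (hr0 : 0 ≤ r) (hr1 : r ≤ 1) : Real.pi ^ 2 * (r - r ^ 2 / 2) ≤ DD K r := by
  have h := cxb_main (m := 2) (by norm_num) (finSumFinEquiv.trans (finCongr (by norm_num)))
    rfl rfl hK hB hr0 hr1 (fun s => |(1 - s) * Real.pi|) (by fun_prop) (fun s => abs_nonneg _)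
    (fun s hs => by
      rw [cxb_J2, Real.sq_sqrt (by linarith), abs_of_nonneg]
      exact mul_nonneg (by linarith) Real.pi_pos.le)
  refine le_trans (le_of_eq ?_) h
  have h2 : (∫ s in (0 : ℝ)..r, |(1 - s) * Real.pi|) = ∫ s in (0 : ℝ)..r, (1 - s) * Real.pi := by
    refine intervalIntegral.integral_congr fun s hs => ?_
    rw [uIcc_of_le hr0] at hs
    exact abs_of_nonneg (mul_nonneg (by linarith [hs.2]) Real.pi_pos.le)
  rw [h2, intervalIntegral.integral_mul_const]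
  have h3 : (∫ s in (0 : ℝ)..r, (1 - s)) = r - r ^ 2 / 2 := by
    rw [intervalIntegral.integral_sub (by simp) (by simp)]
    simp
  rw [h3]
  ring

theorem cx_ball6 {K : Set (Fin (4 + 2) → ℝ)} (hK : ConvBody (4 + 2) K) (hB : eball (4 + 2) ⊆ K)
    {r : ℝ} (hr0 : 0 ≤ r) (hr1 : r ≤ 1) :
    Real.pi ^ 3 / 2 * (r - r ^ 2 + r ^ 3 / 3) ≤ DD K r := by
  have h := cxb_main (m := 4) (by norm_num) (finSumFinEquiv.trans (finCongr (by norm_num)))
    rfl rfl hK hB hr0 hr1 (fun s => (1 - s) ^ 2 * (Real.pi ^ 2 / 2)) (by fun_prop)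
    (fun s => by positivity)
    (fun s hs => by
      have h1 : Real.sqrt (1 - s) ^ 4 = (Real.sqrt (1 - s) ^ 2) ^ 2 := by ring
      rw [cxb_J4, h1, Real.sq_sqrt (by linarith)])
  refine le_trans (le_of_eq ?_) h
  rw [intervalIntegral.integral_mul_const]
  have h3 : (∫ s in (0 : ℝ)..r, (1 - s) ^ 2) = r - r ^ 2 + r ^ 3 / 3 := by
    have h4 : ∀ s : ℝ, (1 - s) ^ 2 = 1 - 2 * s + s ^ 2 := fun s => by ring
    simp only [h4]
    rw [intervalIntegral.integral_add (by apply Continuous.intervalIntegrable; fun_prop)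
      (by apply Continuous.intervalIntegrable; fun_prop),
      intervalIntegral.integral_sub (by simp) (by apply Continuous.intervalIntegrable; fun_prop),
      intervalIntegral.integral_const_mul, integral_pow]
    simp
    ring
  rw [h3]
  ring

end Vale.Agent.P254U
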