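import Vale.Agent.Lib.P254U.SY.Defs

/-!
P254U/CX: unit balls of complex norms on `ℂ^2` and `ℂ^3` (convex bodies in `ℝ^4`, `ℝ^6` invariant under the
circle group `x ↦ a x + b J x`, `a^2 + b^2 = 1`, of a linear complex structure `J`, `J^2 = -1`).

OVERVIEW.  (Pos) in a suitable position `B ⊆ K ⊆ {x_0^2 + x_1^2 ≤ 1}` and `Σ_K = s I`.  Write `z = (x_0, x_1)` and
`D(ρ) = |{x ∈ K : |z| ≤ ρ}|`.
(Mono) the sections `F(z) = |{y : (z,y) ∈ K}|` satisfy `F(l z) ≥ F(z)` for `l ∈ [0,1]` (Brunn-Minkowski and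
symmetry), so `D(ρ) ≥ ρ^2 |K|`.
(Ball) `D(ρ) ≥ D_B(ρ)`, for `n = 4`: `π^2 (ρ^2 - ρ^4/2)`, for `n = 6`: `(π^3/2) (ρ^2 - ρ^4 + ρ^6/3)`.
(Lay) `2 s |K| = ∫_K |z|^2 = |K| - ∫_0^1 2 ρ D(ρ) dρ`.  So for every `a ∈ [0,1]` (split at `ρ^2 = a`):
`2 s V ≤ V - V (1 - a^2)/2 - π^2 (a^2/2 - a^3/6)` resp. `- (π^3/2) (a^2/2 - a^3/3 + a^4/12)`.
(Num) `s^4 < 576/4050000 V^2` resp. `s^6 < 720^2/(7^7 8^6) V^2`, i.e. `Rat K < 1`.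
-/

open MeasureTheory Set

namespace Vale.Agent.P254U

/-- volume of the part of `K` with `x_0^2 + x_1^2 ≤ r` -/
noncomputable def DD {m : ℕ} (K : Set (Fin (m + 2) → ℝ)) (r : ℝ) : ℝ :=
  (volume {x | x ∈ K ∧ x 0 ^ 2 + x 1 ^ 2 ≤ r}).toReal

end Vale.Agent.P254U
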