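import Vale.Agent.Lib.P254U.CX.Defs
import Vale.Agent.Lib.P254U.SY.Lin

/-!
P254U/CX/Equi: in whitened position the complex structure is orthogonal.
`M` whitens `K` (`M Σ Mᵀ = 1`, `exists_white` in SY/Lin.lean), `J K = K` (from the invariance with `a = 0`, `b = 1`:
`J K ⊆ K`, and with `b = -1`: `-J K ⊆ K`, `J⁻¹ = -J`), so `J Σ Jᵀ = Σ` (`lin_image` for `J`, as `J '' K = K`).
`J' = M J M⁻¹`: `J' J' = -1` and `J' J'ᵀ = M J Σ Jᵀ Mᵀ = 1` since `M⁻¹ M⁻ᵀ = Σ`.
The set `K' = M K` is invariant under `a x + b J' x`.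
-/

open MeasureTheory Set

namespace Vale.Agent.P254U

variable {n : ℕ}

theorem exists_unitary_pos (hn : 1 ≤ n) {K : Set (Fin n → ℝ)} (hK : ConvBody n K)
    {J : Matrix (Fin n) (Fin n) ℝ} (hJ : J * J = -1)
    (hinv : ∀ x ∈ K, ∀ a b : ℝ, a ^ 2 + b ^ 2 = 1 → a • x + b • J.mulVec x ∈ K) :
    ∃ (L : Set (Fin n → ℝ)) (J' : Matrix (Fin n) (Fin n) ℝ), ConvBody n L ∧ Rat L = Rat K ∧
      covM L = 1 ∧ J' * J' = -1 ∧ J' * J'.transpose = 1 ∧
      ∀ x ∈ L, ∀ a b : ℝ, a ^ 2 + b ^ 2 = 1 → a • x + b • J'.mulVec x ∈ L := by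
  classical
  have hJd : J.det ≠ 0 := by
    intro h0
    have h1 : (J * J).det = 0 := by rw [Matrix.det_mul, h0, mul_zero]
    rw [hJ, Matrix.det_neg, Matrix.det_one, mul_one] at h1
    exact absurd h1 (pow_ne_zero _ (by norm_num))
  have hJJ : ∀ x : Fin n → ℝ, J.mulVec (J.mulVec x) = -x := by
    intro x
    rw [Matrix.mulVec_mulVec, hJ, Matrix.neg_mulVec, Matrix.one_mulVec]
  have hJK : (fun x => J.mulVec x) '' K = K := by
    ext y
    constructor
    · rintro ⟨x, hx, rfl⟩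
      have h1 := hinv x hx 0 1 (by norm_num)
      rwa [zero_smul, one_smul, zero_add] at h1
    · intro hy
      have h1 := hinv y hy 0 (-1) (by norm_num)
      rw [zero_smul, zero_add] at h1
      refine ⟨(-1 : ℝ) • J.mulVec y, h1, ?_⟩
      change J.mulVec ((-1 : ℝ) • J.mulVec y) = y
      rw [Matrix.mulVec_smul, hJJ, neg_smul, one_smul, neg_neg]
  have hcJ : covM K = J * covM K * J.transpose := by
    have h1 := (lin_image hn hK J hJd).2.2
    rwa [hJK] at h1
  obtain ⟨M, hM, hMc⟩ := exists_white hK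
  obtain ⟨hL, hR, hcov⟩ := lin_image hn hK M hM
  have hu : IsUnit M.det := isUnit_iff_ne_zero.2 hM
  have hMi : M⁻¹ * M = 1 := Matrix.nonsing_inv_mul M hu
  have hMi' : M * M⁻¹ = 1 := Matrix.mul_nonsing_inv M hu
  have hS : M⁻¹ * (M⁻¹).transpose = covM K := by
    have h3 : M.transpose * (M⁻¹).transpose = 1 := by
      rw [← Matrix.transpose_mul, hMi, Matrix.transpose_one]
    have h5 : covM K * M.transpose = M⁻¹ := by
      calc covM K * M.transpose = (M⁻¹ * M) * (covM K * M.transpose) := by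
            rw [hMi, Matrix.one_mul]
        _ = M⁻¹ * (M * covM K * M.transpose) := by
            simp only [Matrix.mul_assoc]
        _ = M⁻¹ := by rw [hMc, Matrix.mul_one]
    calc M⁻¹ * (M⁻¹).transpose = (covM K * M.transpose) * (M⁻¹).transpose := by rw [h5]
      _ = covM K := by rw [Matrix.mul_assoc, h3, Matrix.mul_one]
  refine ⟨(fun x => M.mulVec x) '' K, M * J * M⁻¹, hL, hR, by rw [hcov, hMc], ?_, ?_, ?_⟩
  · calc M * J * M⁻¹ * (M * J * M⁻¹) = M * J * (M⁻¹ * M) * J * M⁻¹ := by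
          simp only [Matrix.mul_assoc]
      _ = M * (J * J) * M⁻¹ := by
          rw [hMi, Matrix.mul_one]
          simp only [Matrix.mul_assoc]
      _ = -1 := by
          rw [hJ, Matrix.mul_neg, Matrix.mul_one, Matrix.neg_mul, hMi']
  · calc M * J * M⁻¹ * (M * J * M⁻¹).transpose
        = M * (J * (M⁻¹ * (M⁻¹).transpose) * J.transpose) * M.transpose := by
          rw [Matrix.transpose_mul, Matrix.transpose_mul]
          simp only [Matrix.mul_assoc]
      _ = 1 := by rw [hS, ← hcJ, hMc]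
  · rintro _ ⟨x, hx, rfl⟩ a b hab
    refine ⟨a • x + b • J.mulVec x, hinv x hx a b hab, ?_⟩
    change M.mulVec (a • x + b • J.mulVec x) = a • M.mulVec x + b • (M * J * M⁻¹).mulVec (M.mulVec x)
    rw [Matrix.mulVec_add, Matrix.mulVec_smul, Matrix.mulVec_smul, Matrix.mulVec_mulVec,
      Matrix.mulVec_mulVec, Matrix.mul_assoc (M * J), hMi, Matrix.mul_one]

end Vale.Agent.P254U
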