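import Vale.Agent.Lib.P254U.CX.Defs

/-!
P254U/CX/Lay: layer cake for `q(x) = x_0^2 + x_1^2 ∈ [0,1]` on `K`.
`1 - q(x) = ∫_0^1 1_{q(x) ≤ r} dr` (up to the endpoint), so `∫_K (1 - q) = ∫_0^1 DD K r dr` (Fubini, or
`MeasureTheory.integral_comp..`/`Integrable.integral_eq_integral_meas_le` layer cake lemmas).
`cx_bound`: with `q = ∫_K (x_0^2+x_1^2)`, if `DD K r ≥ r V` and `DD K r ≥ g(r)` for `r ∈ [0,1]` then
`q ≤ V - ∫_0^a g - V (1 - a^2)/2`.  (`DD K` is monotone, hence interval integrable.)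
-/

open MeasureTheory Set

namespace Vale.Agent.P254U

variable {m : ℕ}

theorem cx_layer {K : Set (Fin (m + 2) → ℝ)} (hK : ConvBody (m + 2) K)
    (h1 : ∀ x ∈ K, x 0 ^ 2 + x 1 ^ 2 ≤ 1) :
    ∫ x in K, (x 0 ^ 2 + x 1 ^ 2) = (volume K).toReal - ∫ r in (0 : ℝ)..1, DD K r := by
  have hKm : MeasurableSet K := hK.compact.measurableSet
  have hfin : volume K ≠ ⊤ := hK.compact.measure_lt_top.ne
  have hqc : Continuous fun x : Fin (m + 2) → ℝ => x 0 ^ 2 + x 1 ^ 2 := by fun_prop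
  have hqi : IntegrableOn (fun x : Fin (m + 2) → ℝ => x 0 ^ 2 + x 1 ^ 2) K volume :=
    hqc.continuousOn.integrableOn_compact hK.compact
  have hfi : Integrable (fun x : Fin (m + 2) → ℝ => 1 - (x 0 ^ 2 + x 1 ^ 2))
      (volume.restrict K) :=
    (continuous_const.sub hqc).continuousOn.integrableOn_compact hK.compact
  have hnn : 0 ≤ᵐ[volume.restrict K] fun x : Fin (m + 2) → ℝ => 1 - (x 0 ^ 2 + x 1 ^ 2) := by
    refine (ae_restrict_iff' hKm).2 (Filter.Eventually.of_forall fun x hx => ?_)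
    simp only [Pi.zero_apply]
    linarith [h1 x hx]
  have hlay := hfi.integral_eq_integral_meas_le hnn
  have hD : ∀ t : ℝ, (volume.restrict K).real {x : Fin (m + 2) → ℝ | t ≤ 1 - (x 0 ^ 2 + x 1 ^ 2)} =
      DD K (1 - t) := by
    intro t
    have hms : MeasurableSet {x : Fin (m + 2) → ℝ | t ≤ 1 - (x 0 ^ 2 + x 1 ^ 2)} :=
      measurableSet_le measurable_const (continuous_const.sub hqc).measurable
    unfold DD
    rw [Measure.real, Measure.restrict_apply hms]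
    congr 2
    ext x
    constructor
    · rintro ⟨h2, h3⟩
      refine ⟨h3, ?_⟩
      have h4 : t ≤ 1 - (x 0 ^ 2 + x 1 ^ 2) := h2
      linarith
    · rintro ⟨h2, h3⟩
      refine ⟨?_, h2⟩
      change t ≤ 1 - (x 0 ^ 2 + x 1 ^ 2)
      linarith
  have hzero : ∀ r : ℝ, r < 0 → DD K r = 0 := by
    intro r hr
    unfold DD
    have : {x : Fin (m + 2) → ℝ | x ∈ K ∧ x 0 ^ 2 + x 1 ^ 2 ≤ r} = ∅ := by
      ext x
      constructor
      · rintro ⟨_, h3⟩
        nlinarith [sq_nonneg (x 0), sq_nonneg (x 1)]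
      · intro h
        exact absurd h (Set.notMem_empty x)
    rw [this]
    simp
  have h2 : ∫ t in Ioi (0 : ℝ), (volume.restrict K).real
      {x : Fin (m + 2) → ℝ | t ≤ 1 - (x 0 ^ 2 + x 1 ^ 2)} = ∫ r in (0 : ℝ)..1, DD K r := by
    have h3 : ∫ t in Ioi (0 : ℝ), (volume.restrict K).real
      {x : Fin (m + 2) → ℝ | t ≤ 1 - (x 0 ^ 2 + x 1 ^ 2)} = ∫ t in Ioi (0 : ℝ), DD K (1 - t) :=
      setIntegral_congr_fun measurableSet_Ioi fun t _ => hD t
    rw [h3]
    have h4 : ∫ t in Ioi (0 : ℝ), DD K (1 - t) = ∫ t in Ioc (0 : ℝ) 1, DD K (1 - t) := by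
      refine setIntegral_eq_of_subset_of_forall_diff_eq_zero measurableSet_Ioi ?_ ?_
      · intro t ht
        exact ht.1
      · rintro t ⟨ht1, ht2⟩
        refine hzero _ ?_
        have ht3 : 0 < t := ht1
        by_contra hcon
        exact ht2 ⟨ht3, by linarith⟩
    rw [h4, ← intervalIntegral.integral_of_le zero_le_one,
      intervalIntegral.integral_comp_sub_left (fun r => DD K r) 1]
    norm_num
  have h5 : ∫ x in K, (1 - (x 0 ^ 2 + x 1 ^ 2)) =
      (volume K).toReal - ∫ x in K, (x 0 ^ 2 + x 1 ^ 2) := by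
    have h6 : IntegrableOn (fun _ : Fin (m + 2) → ℝ => (1 : ℝ)) K volume :=
      integrableOn_const hfin
    rw [integral_sub h6 hqi]
    simp [Measure.real]
  rw [h2] at hlay
  rw [h5] at hlay
  linarith

theorem cx_bound {K : Set (Fin (m + 2) → ℝ)} (hK : ConvBody (m + 2) K)
    (h1 : ∀ x ∈ K, x 0 ^ 2 + x 1 ^ 2 ≤ 1)
    (h2 : ∀ r : ℝ, 0 ≤ r → r ≤ 1 → r * (volume K).toReal ≤ DD K r) {g : ℝ → ℝ} (hg : Continuous g)
    (h3 : ∀ r : ℝ, 0 ≤ r → r ≤ 1 → g r ≤ DD K r) {a : ℝ} (ha0 : 0 ≤ a) (ha1 : a ≤ 1) :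
    ∫ x in K, (x 0 ^ 2 + x 1 ^ 2) ≤
      (volume K).toReal - (∫ r in (0 : ℝ)..a, g r) - (volume K).toReal * (1 - a ^ 2) / 2 := by
  rw [cx_layer hK h1]
  have hfin : volume K ≠ ⊤ := hK.compact.measure_lt_top.ne
  have hmono : Monotone (DD K) := by
    intro r s hrs
    unfold DD
    refine ENNReal.toReal_mono ?_ (measure_mono fun x hx => ⟨hx.1, hx.2.trans hrs⟩)
    exact ne_top_of_le_ne_top hfin (measure_mono fun x hx => hx.1)
  have hi : ∀ b c : ℝ, IntervalIntegrable (DD K) volume b c := fun b c => hmono.intervalIntegrable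
  have h4 : ∫ r in (0 : ℝ)..1, DD K r = (∫ r in (0 : ℝ)..a, DD K r) + ∫ r in a..1, DD K r :=
    (intervalIntegral.integral_add_adjacent_intervals (hi 0 a) (hi a 1)).symm
  have h5 : ∫ r in (0 : ℝ)..a, g r ≤ ∫ r in (0 : ℝ)..a, DD K r :=
    intervalIntegral.integral_mono_on ha0 (hg.intervalIntegrable _ _) (hi 0 a)
      fun r hr => h3 r hr.1 (hr.2.trans ha1)
  have h6 : ∫ r in a..1, r * (volume K).toReal ≤ ∫ r in a..1, DD K r :=
    intervalIntegral.integral_mono_on ha1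
      ((continuous_id.mul continuous_const).intervalIntegrable _ _) (hi a 1)
      fun r hr => h2 r (ha0.trans hr.1) hr.2
  have h7 : ∫ r in a..1, r * (volume K).toReal = (volume K).toReal * (1 - a ^ 2) / 2 := by
    rw [intervalIntegral.integral_mul_const, integral_id]
    ring
  linarith

end Vale.Agent.P254U
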