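import Vale.Agent.Lib.P254U.CX.Defs

/-!
P254U/CX/Mono: `D(ρ) ≥ ρ^2 |K|`.
`F(z) = |{y : (z_0, z_1, y) ∈ K}|`, `z ∈ ℝ^2`, `y ∈ ℝ^m` (`m ≥ 1`).  For `l ∈ [0,1]` the section at `l z` contains
`((1+l)/2) • A + ((1-l)/2) • (-A)`, `A` the section at `z`, since `l = (1+l)/2 - (1-l)/2`; by `brunn_minkowski`
(ZP/BM.lean) `F(z) ≤ F(l z)` (trivial if `F(z) = 0`).  Fubini (`MeasurableEquiv.piFinSuccAbove` twice, or
`MeasurableEquiv.piFinTwo`/`sumPiEquivProdPi`; see LP/SecA.lean, LP/SecB.lean, RV/BodyA.lean) and the substitution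
`z → ρ z` in `ℝ^2`: `|{x ∈ K : |z| ≤ ρ}| = ∫_{|z| ≤ ρ} F = ρ^2 ∫_{|z| ≤ 1} F(ρ z) dz ≥ ρ^2 ∫_{|z| ≤ 1} F = ρ^2 |K|`.
Here `r = ρ^2`.
-/

open MeasureTheory Set

namespace Vale.Agent.P254U

variable {m : ℕ}

private theorem Mono_symm_cons (n : ℕ) (z : ℝ × (Fin n → ℝ)) :
    (MeasurableEquiv.piFinSuccAbove (fun _ : Fin (n + 1) => ℝ) 0).symm z =
      (Fin.cons z.1 z.2 : Fin (n + 1) → ℝ) := by
  funext i
  refine Fin.cases ?_ (fun i => ?_) i
  · rfl
  · rfl

private theorem Mono_fub {n : ℕ} {S : Set (Fin (n + 1) → ℝ)} (hS : MeasurableSet S) :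
    volume S = ∫⁻ t : ℝ, volume {y : Fin n → ℝ | (Fin.cons t y : Fin (n + 1) → ℝ) ∈ S} := by
  have hmp := (volume_preserving_piFinSuccAbove (n := n) (fun _ : Fin (n + 1) => ℝ) 0).symm
  rw [← hmp.measure_preimage hS.nullMeasurableSet]
  have h1 : MeasurableSet ((MeasurableEquiv.piFinSuccAbove (fun _ : Fin (n + 1) => ℝ) 0).symm ⁻¹' S) :=
    (MeasurableEquiv.piFinSuccAbove (fun _ : Fin (n + 1) => ℝ) 0).symm.measurable hS
  refine (Measure.prod_apply h1).trans ?_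
  refine lintegral_congr fun t => ?_
  congr 1
  ext y
  simp only [mem_preimage, mem_ofPred_eq, Mono_symm_cons]

private theorem Mono_consMeas {n : ℕ} (t : ℝ) :
    Continuous (fun y : Fin n → ℝ => (Fin.cons t y : Fin (n + 1) → ℝ)) := by
  refine continuous_pi fun i => ?_
  refine Fin.cases ?_ (fun j => ?_) i
  · simp only [Fin.cons_zero]
    exact continuous_const
  · simp only [Fin.cons_succ]
    exact continuous_apply j

private theorem Mono_fub2 {S : Set (Fin (m + 2) → ℝ)} (hS : MeasurableSet S) :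
    volume S = ∫⁻ a : ℝ, ∫⁻ b : ℝ, volume {y : Fin m → ℝ |
      (Fin.cons a (Fin.cons b y : Fin (m + 1) → ℝ) : Fin (m + 2) → ℝ) ∈ S} := by
  rw [Mono_fub hS]
  refine lintegral_congr fun a => ?_
  exact Mono_fub ((Mono_consMeas a).measurable hS)

/-- the section -/
private def Mono_sec (K : Set (Fin (m + 2) → ℝ)) (a b : ℝ) : Set (Fin m → ℝ) :=
  {y : Fin m → ℝ | (Fin.cons a (Fin.cons b y : Fin (m + 1) → ℝ) : Fin (m + 2) → ℝ) ∈ K}

private theorem Mono_compact {K : Set (Fin (m + 2) → ℝ)} (hK : IsCompact K) (a b : ℝ) :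
    IsCompact (Mono_sec K a b) := by
  have h1 : Continuous (fun x : Fin (m + 2) → ℝ => fun j : Fin m => x j.succ.succ) := by fun_prop
  refine (hK.image h1).of_isClosed_subset
    (hK.isClosed.preimage ((Mono_consMeas a).comp (Mono_consMeas b))) ?_
  intro y hy
  exact ⟨_, hy, rfl⟩

private theorem Mono_comb {K : Set (Fin (m + 2) → ℝ)} (hK : Convex ℝ K) {a b a' b' s : ℝ}
    (h0 : 0 ≤ s) (h1 : s ≤ 1) : ∀ x ∈ Mono_sec K a b, ∀ y ∈ Mono_sec K a' b',
      (1 - s) • x + s • y ∈ Mono_sec K ((1 - s) * a + s * a') ((1 - s) * b + s * b') := by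
  intro x hx y hy
  have h2 := hK hx hy (show 0 ≤ 1 - s by linarith) h0 (by ring)
  have h3 : (Fin.cons ((1 - s) * a + s * a') (Fin.cons ((1 - s) * b + s * b')
      ((1 - s) • x + s • y) : Fin (m + 1) → ℝ) : Fin (m + 2) → ℝ) =
      (1 - s) • (Fin.cons a (Fin.cons b x : Fin (m + 1) → ℝ) : Fin (m + 2) → ℝ) +
        s • (Fin.cons a' (Fin.cons b' y : Fin (m + 1) → ℝ) : Fin (m + 2) → ℝ) := by
    funext i
    refine Fin.cases ?_ (fun j => ?_) i
    · simp only [Fin.cons_zero, Pi.add_apply, Pi.smul_apply, smul_eq_mul]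
    · refine Fin.cases ?_ (fun k => ?_) j
      · simp only [Fin.cons_zero, Fin.cons_succ, Pi.add_apply, Pi.smul_apply, smul_eq_mul]
      · simp only [Fin.cons_succ, Pi.add_apply, Pi.smul_apply, smul_eq_mul]
  change (Fin.cons ((1 - s) * a + s * a') (Fin.cons ((1 - s) * b + s * b')
      ((1 - s) • x + s • y) : Fin (m + 1) → ℝ) : Fin (m + 2) → ℝ) ∈ K
  rw [h3]
  exact h2

private theorem Mono_neg {K : Set (Fin (m + 2) → ℝ)} (hs : ∀ x ∈ K, -x ∈ K) (a b : ℝ) :
    Mono_sec K (-a) (-b) = -Mono_sec K a b := by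
  have hc : ∀ (a b : ℝ) (y : Fin m → ℝ),
      (Fin.cons (-a) (Fin.cons (-b) (-y) : Fin (m + 1) → ℝ) : Fin (m + 2) → ℝ) =
        -(Fin.cons a (Fin.cons b y : Fin (m + 1) → ℝ) : Fin (m + 2) → ℝ) := by
    intro a b y
    funext i
    refine Fin.cases ?_ (fun j => ?_) i
    · simp
    · refine Fin.cases ?_ (fun k => ?_) j
      · simp
      · simp
  ext y
  constructor
  · intro hy
    have h2 := hs _ hy
    rw [← hc, neg_neg, neg_neg] at h2
    exact h2
  · intro hy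
    have h3 : (Fin.cons a (Fin.cons b (-y) : Fin (m + 1) → ℝ) : Fin (m + 2) → ℝ) ∈ K := hy
    have h2 := hs _ h3
    rw [← hc, neg_neg] at h2
    exact h2

/-- sections increase towards the origin -/
private theorem Mono_le (hm : 1 ≤ m) {K : Set (Fin (m + 2) → ℝ)} (hK : ConvBody (m + 2) K)
    (hs : ∀ x ∈ K, -x ∈ K) (a b : ℝ) {l : ℝ} (h0 : 0 ≤ l) (h1 : l < 1) :
    volume (Mono_sec K a b) ≤ volume (Mono_sec K (l * a) (l * b)) := by
  have hf : ∀ a b, volume (Mono_sec K a b) ≠ ⊤ := fun a b =>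
    (Mono_compact hK.compact a b).measure_lt_top.ne
  by_cases hz : volume (Mono_sec K a b) = 0
  · rw [hz]; exact bot_le
  have hpos : 0 < (volume (Mono_sec K a b)).toReal := ENNReal.toReal_pos hz (hf a b)
  have hneg : volume (Mono_sec K (-a) (-b)) = volume (Mono_sec K a b) := by
    rw [Mono_neg hs, Measure.measure_neg]
  have hpos' : 0 < (volume (Mono_sec K (-a) (-b))).toReal := by rw [hneg]; exact hpos
  have e1 : (1 - (1 - l) / 2) * a + (1 - l) / 2 * (-a) = l * a := by ring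
  have e2 : (1 - (1 - l) / 2) * b + (1 - l) / 2 * (-b) = l * b := by ring
  have hcomb := Mono_comb hK.convex (a := a) (b := b) (a' := -a) (b' := -b) (s := (1 - l) / 2)
    (by linarith) (by linarith)
  rw [e1, e2] at hcomb
  have h2 := brunn_minkowski hm (Mono_compact hK.compact a b).measurableSet
    (Mono_compact hK.compact (-a) (-b)).measurableSet
    (Mono_compact hK.compact (l * a) (l * b)).measurableSet (hf _ _) hpos hpos'
    (l := (1 - l) / 2) (by linarith) (by linarith) hcomb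
  rw [hneg] at h2
  have h3 : (volume (Mono_sec K a b)).toReal ^ (1 / (m : ℝ)) ≤
      (volume (Mono_sec K (l * a) (l * b))).toReal ^ (1 / (m : ℝ)) := by
    linarith
  have hmr : (0 : ℝ) < 1 / (m : ℝ) := by
    have : (0 : ℝ) < m := by exact_mod_cast hm
    positivity
  have h4 := (Real.rpow_le_rpow_iff hpos.le ENNReal.toReal_nonneg hmr).1 h3
  exact (ENNReal.toReal_le_toReal (hf _ _) (hf _ _)).1 h4

theorem cx_mono (hm : 1 ≤ m) {K : Set (Fin (m + 2) → ℝ)} (hK : ConvBody (m + 2) K)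
    (hs : ∀ x ∈ K, -x ∈ K) (h1 : ∀ x ∈ K, x 0 ^ 2 + x 1 ^ 2 ≤ 1) {r : ℝ} (hr0 : 0 ≤ r)
    (hr1 : r ≤ 1) : r * (volume K).toReal ≤ DD K r := by
  rcases hr0.eq_or_lt with h0 | h0
  · rw [← h0, zero_mul]
    exact ENNReal.toReal_nonneg
  rcases hr1.eq_or_lt with h2 | h2
  · rw [h2, one_mul, DD]
    refine ENNReal.toReal_mono ?_ (measure_mono fun x hx => ⟨hx, h1 x hx⟩)
    exact ((measure_mono (fun _ hx => hx.1)).trans_lt hK.compact.measure_lt_top).ne
  obtain ⟨ρ, hρ⟩ : ∃ ρ : ℝ, ρ = Real.sqrt r := ⟨_, rfl⟩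
  have hρ0 : 0 < ρ := by rw [hρ]; exact Real.sqrt_pos.2 h0
  have hρr : ρ ^ 2 = r := by rw [hρ]; exact Real.sq_sqrt h0.le
  have hρ1 : ρ < 1 := by nlinarith
  obtain ⟨Dset, hDset⟩ : ∃ Dset : Set (Fin (m + 2) → ℝ),
    Dset = {x | x ∈ K ∧ x 0 ^ 2 + x 1 ^ 2 ≤ r} := ⟨_, rfl⟩
  have hDm : MeasurableSet Dset := by
    rw [hDset]
    have hcont : Continuous fun x : Fin (m + 2) → ℝ => x 0 ^ 2 + x 1 ^ 2 := by fun_prop
    exact hK.compact.measurableSet.inter (measurableSet_le hcont.measurable measurable_const)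
  have hDf : volume Dset ≠ ⊤ := by
    rw [hDset]
    exact ((measure_mono (fun _ hx => hx.1)).trans_lt hK.compact.measure_lt_top).ne
  obtain ⟨d, hd⟩ : ∃ d : Fin (m + 2) → ℝ, d = Fin.cons ρ (Fin.cons ρ (fun _ => 1) : Fin (m + 1) → ℝ) :=
    ⟨_, rfl⟩
  have hdet : LinearMap.det (Matrix.toLin' (Matrix.diagonal d)) = r := by
    rw [LinearMap.det_toLin', Matrix.det_diagonal, Fin.prod_univ_succ, Fin.prod_univ_succ, hd]
    simp only [Fin.cons_zero, Fin.cons_succ, Finset.prod_const_one, mul_one]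
    rw [← hρr]; ring
  have hLx : ∀ (a b : ℝ) (y : Fin m → ℝ), Matrix.toLin' (Matrix.diagonal d)
      (Fin.cons a (Fin.cons b y : Fin (m + 1) → ℝ) : Fin (m + 2) → ℝ) =
      (Fin.cons (ρ * a) (Fin.cons (ρ * b) y : Fin (m + 1) → ℝ) : Fin (m + 2) → ℝ) := by
    intro a b y
    funext i
    rw [Matrix.toLin'_apply, Matrix.mulVec_diagonal, hd]
    refine Fin.cases ?_ (fun j => ?_) i
    · simp only [Fin.cons_zero]
    · refine Fin.cases ?_ (fun k => ?_) j
      · simp only [Fin.cons_zero, Fin.cons_succ]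
      · simp only [Fin.cons_succ, one_mul]
  have hvol := Measure.addHaar_preimage_linearMap (volume : Measure (Fin (m + 2) → ℝ))
    (f := Matrix.toLin' (Matrix.diagonal d)) (by rw [hdet]; exact h0.ne') Dset
  rw [hdet, abs_of_pos (inv_pos.2 h0)] at hvol
  have hpm : MeasurableSet (Matrix.toLin' (Matrix.diagonal d) ⁻¹' Dset) :=
    (LinearMap.continuous_of_finiteDimensional _).measurable hDm
  have hle : volume K ≤ volume (Matrix.toLin' (Matrix.diagonal d) ⁻¹' Dset) := by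
    rw [Mono_fub2 hK.compact.measurableSet, Mono_fub2 hpm]
    refine lintegral_mono fun a => lintegral_mono fun b => ?_
    by_cases hne : (Mono_sec K a b).Nonempty
    · obtain ⟨y₀, hy₀⟩ := hne
      have hab : a ^ 2 + b ^ 2 ≤ 1 := by
        have := h1 _ hy₀
        simpa using this
      refine (Mono_le hm hK hs a b hρ0.le hρ1).trans (measure_mono fun y hy => ?_)
      change Matrix.toLin' (Matrix.diagonal d)
        (Fin.cons a (Fin.cons b y : Fin (m + 1) → ℝ) : Fin (m + 2) → ℝ) ∈ Dset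
      rw [hLx, hDset]
      refine ⟨hy, ?_⟩
      have e : (Fin.cons (ρ * a) (Fin.cons (ρ * b) y : Fin (m + 1) → ℝ) : Fin (m + 2) → ℝ) 0 ^ 2 +
          (Fin.cons (ρ * a) (Fin.cons (ρ * b) y : Fin (m + 1) → ℝ) : Fin (m + 2) → ℝ) 1 ^ 2 =
          (ρ * a) ^ 2 + (ρ * b) ^ 2 := rfl
      rw [e, mul_pow, mul_pow, hρr, ← mul_add]
      exact mul_le_of_le_one_right h0.le hab
    · rw [Set.not_nonempty_iff_eq_empty] at hne
      have : volume (Mono_sec K a b) = 0 := by rw [hne, measure_empty]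
      change volume (Mono_sec K a b) ≤ _
      rw [this]
      exact bot_le
  rw [hvol] at hle
  have h5 := ENNReal.toReal_mono (ENNReal.mul_ne_top ENNReal.ofReal_ne_top hDf) hle
  rw [ENNReal.toReal_mul, ENNReal.toReal_ofReal (inv_nonneg.2 h0.le)] at h5
  have h6 : DD K r = (volume Dset).toReal := by rw [DD, hDset]
  rw [h6]
  calc r * (volume K).toReal ≤ r * (r⁻¹ * (volume Dset).toReal) :=
        mul_le_mul_of_nonneg_left h5 h0.le
    _ = (volume Dset).toReal := by rw [← mul_assoc, mul_inv_cancel₀ h0.ne', one_mul]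

end Vale.Agent.P254U
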