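import Mathlib

/-!
P254U/CX/Num: the numerical inequalities.
`num4`: if `V ≥ π^2` use `a = 0`: `s ≤ 1/4`.  Otherwise `a = 2 (1 - V/π^2) ∈ [0,1]`, `V = π^2 (1 - a/2)`, and
`2 s V ≤ V (1 + a^2)/2 - π^2 (a^2/2 - a^3/6)` becomes `s ≤ 1/4 - a^3/(12 (2-a)) ≤ 1/4 - a^3/24`; need
`s^2 < (24/√4050000) V`, e.g. `s^4 < (576/4050000) V^2` from `s^2 < 0.01192 V`, `0.01192 π^2 > 0.1176`:
case `a ≤ 0.9` (`s^2 ≤ 1/16 < 0.1176 * 0.55`), case `a ≥ 0.9` (`s ≤ 0.2197`, `s^2 < 0.0483 < 0.1176/2`).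
`num6`: if `V ≥ π^3/2` use `a = 0`: `s ≤ 1/4`, `s^3 ≤ 1/64 < 0.001549 π^3/2`.  Otherwise choose `a ∈ [0,1]` with
`V = (π^3/2) v`, `v = 1 - a + a^2/3` (intermediate value / quadratic formula; `v ∈ [1/3, 1]`), then
`s ≤ 1/4 - a^3 (2-a)/(24 v)`, and `(6 v - 2 a^3 + a^4)^3 < 330 v^4` for `a ∈ [0,1]` (maximum of the quotient of the
two sides is 0.952 near `a = 0.5`), which gives `s^3 < 0.02388 v ≤ 0.001549 V` and
`s^6 < (720^2/(7^7 8^6)) V^2` (`720^2/(7^7*8^6) = 2.40126e-6 > 0.0015495^2`).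
-/

namespace Vale.Agent.P254U

private theorem Num_b1 {t s : ℝ} (ht : 0 ≤ t) (hs : 0 ≤ s) : 0 ≤ (113 : ℝ) * (t ^ 0 * s ^ 12) +
    (1020 : ℝ) * (t ^ 1 * s ^ 11) +
    (4151 : ℝ) * (t ^ 2 * s ^ 10) +
    (10048 : ℝ) * (t ^ 3 * s ^ 9) +
    (128537 / 8 : ℝ) * (t ^ 4 * s ^ 8) +
    (71271 / 4 : ℝ) * (t ^ 5 * s ^ 7) +
    (503735 / 36 : ℝ) * (t ^ 6 * s ^ 6) +
    (1123715 / 144 : ℝ) * (t ^ 7 * s ^ 5) +
    (5276141 / 1728 : ℝ) * (t ^ 8 * s ^ 4) +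
    (5641235 / 6912 : ℝ) * (t ^ 9 * s ^ 3) +
    (73181 / 512 : ℝ) * (t ^ 10 * s ^ 2) +
    (425897 / 27648 : ℝ) * (t ^ 11 * s ^ 1) +
    (95489 / 110592 : ℝ) * (t ^ 12 * s ^ 0) := by
  positivity

private theorem Num_b2 {t s : ℝ} (ht : 0 ≤ t) (hs : 0 ≤ s) : 0 ≤ (95489 / 110592 : ℝ) * (t ^ 0 * s ^ 12) +
    (147037 / 27648 : ℝ) * (t ^ 1 * s ^ 11) +
    (442157 / 13824 : ℝ) * (t ^ 2 * s ^ 10) +
    (66505 / 384 : ℝ) * (t ^ 3 * s ^ 9) +
    (4113209 / 6912 : ℝ) * (t ^ 4 * s ^ 8) +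
    (1111645 / 864 : ℝ) * (t ^ 5 * s ^ 7) +
    (792755 / 432 : ℝ) * (t ^ 6 * s ^ 6) +
    (48083 / 27 : ℝ) * (t ^ 7 * s ^ 5) +
    (512753 / 432 : ℝ) * (t ^ 8 * s ^ 4) +
    (19303 / 36 : ℝ) * (t ^ 9 * s ^ 3) +
    (8489 / 54 : ℝ) * (t ^ 10 * s ^ 2) +
    (730 / 27 : ℝ) * (t ^ 11 * s ^ 1) +
    (56 / 27 : ℝ) * (t ^ 12 * s ^ 0) := by
  positivity

private theorem Num_poly {a : ℝ} (h0 : 0 ≤ a) (h1 : a ≤ 1) :
    (6 * (1 - a + a ^ 2 / 3) - 2 * a ^ 3 + a ^ 4) ^ 3 < 330 * (1 - a + a ^ 2 / 3) ^ 4 := by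
  rcases le_total a (1 / 2) with h | h
  · have hb := Num_b1 (t := 2 * a) (s := 1 - 2 * a) (by linarith) (by linarith)
    ring_nf at hb ⊢
    linarith
  · have hb := Num_b2 (t := 2 * a - 1) (s := 1 - (2 * a - 1)) (by linarith) (by linarith)
    ring_nf at hb ⊢
    linarith

theorem num4 {V s : ℝ} (hV : Real.pi ^ 2 / 2 ≤ V) (hs : 0 < s)
    (h : ∀ a : ℝ, 0 ≤ a → a ≤ 1 → 2 * s * V ≤
      V - Real.pi ^ 2 * (a ^ 2 / 2 - a ^ 3 / 6) - V * (1 - a ^ 2) / 2) :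
    s ^ 4 < 576 / 4050000 * V ^ 2 := by
  have hpi := Real.pi_gt_d4
  set P : ℝ := Real.pi ^ 2 with hP
  have hP1 : 9869 / 1000 < P := by
    rw [hP]
    nlinarith
  have hP0 : 0 < P := by linarith
  obtain ⟨v, hv⟩ : ∃ v, V = P * v := ⟨V / P, by field_simp⟩
  subst hv
  have hv2 : 1 / 2 ≤ v := by
    by_contra hcon
    have := mul_lt_mul_of_pos_left (not_le.1 hcon) hP0
    linarith
  have h' : ∀ a : ℝ, 0 ≤ a → a ≤ 1 →
      2 * s * v ≤ v - (a ^ 2 / 2 - a ^ 3 / 6) - v * (1 - a ^ 2) / 2 := by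
    intro a h0 h1
    have h2 := h a h0 h1
    have h3 : 2 * s * (P * v) = P * (2 * s * v) := by ring
    have h4 : P * v - P * (a ^ 2 / 2 - a ^ 3 / 6) - P * v * (1 - a ^ 2) / 2 =
        P * (v - (a ^ 2 / 2 - a ^ 3 / 6) - v * (1 - a ^ 2) / 2) := by ring
    rw [h3, h4] at h2
    exact le_of_mul_le_mul_left h2 hP0
  have hv0 : 0 < v := by linarith
  have hs1 : s ≤ 1 / 4 := by
    have h2 := h' 0 le_rfl zero_le_one
    by_contra hcon
    have h3 := mul_lt_mul_of_pos_right (not_le.1 hcon) hv0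
    norm_num at h2
    linarith
  have hP2 : 97397 / 1000 < P ^ 2 := by nlinarith
  have key : s ^ 2 < 1176 / 10000 * v := by
    rcases le_total 1 v with hv1 | hv1
    · have : s ^ 2 ≤ (1 / 4) ^ 2 := pow_le_pow_left₀ hs.le hs1 2
      norm_num at this
      linarith
    · have ha0 : 0 ≤ 2 * (1 - v) := by linarith
      have ha1 : 2 * (1 - v) ≤ 1 := by linarith
      have h2 := h' _ ha0 ha1
      set a : ℝ := 2 * (1 - v) with ha
      have hva : v = 1 - a / 2 := by rw [ha]; ring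
      have h3 : 2 * s * v ≤ v / 2 - a ^ 3 / 12 := by
        refine h2.trans (le_of_eq ?_)
        rw [hva]
        ring
      rcases le_total a (9 / 10) with h4 | h4
      · have : s ^ 2 ≤ (1 / 4) ^ 2 := pow_le_pow_left₀ hs.le hs1 2
        norm_num at this
        linarith
      · have h5 : (9 / 10 : ℝ) ^ 3 ≤ a ^ 3 := pow_le_pow_left₀ (by norm_num) h4 3
        have h6 : s ≤ 22 / 100 := by
          by_contra hcon
          have h7 := mul_lt_mul_of_pos_right (not_le.1 hcon) hv0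
          norm_num at h5
          linarith
        have : s ^ 2 ≤ (22 / 100) ^ 2 := pow_le_pow_left₀ hs.le h6 2
        norm_num at this
        linarith
  have h8 : s ^ 4 < (1176 / 10000 * v) ^ 2 := by
    have h9 : s ^ 4 = (s ^ 2) ^ 2 := by ring
    rw [h9]
    exact pow_lt_pow_left₀ key (by positivity) (by norm_num)
  refine h8.trans_le ?_
  have h10 : 0 < v ^ 2 := by positivity
  have h11 := mul_lt_mul_of_pos_right hP2 h10
  have h12 : (P * v) ^ 2 = P ^ 2 * v ^ 2 := by ring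
  rw [h12]
  have h13 : (1176 / 10000 * v) ^ 2 = 13829760 / 1000000000 * v ^ 2 := by ring
  rw [h13]
  linarith

theorem num6 {V s : ℝ} (hV : Real.pi ^ 3 / 6 ≤ V) (hs : 0 < s)
    (h : ∀ a : ℝ, 0 ≤ a → a ≤ 1 → 2 * s * V ≤
      V - Real.pi ^ 3 / 2 * (a ^ 2 / 2 - a ^ 3 / 3 + a ^ 4 / 12) - V * (1 - a ^ 2) / 2) :
    s ^ 6 < 518400 / 215886856192 * V ^ 2 := by
  have hpi := Real.pi_gt_d4
  have hpi3 : (3.1415 : ℝ) ^ 3 < Real.pi ^ 3 :=
    pow_lt_pow_left₀ hpi (by norm_num) (by norm_num)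
  have h16 : Real.pi ^ 3 / 6 = Real.pi ^ 3 / 2 / 3 := by ring
  rw [h16] at hV
  set P : ℝ := Real.pi ^ 3 / 2 with hP
  have hP1 : 155015 / 10000 < P := by
    norm_num at hpi3
    rw [hP]
    linarith
  have hP0 : 0 < P := by linarith
  obtain ⟨v, hv⟩ : ∃ v, V = P * v := ⟨V / P, by field_simp⟩
  subst hv
  have hv2 : 1 / 3 ≤ v := by
    by_contra hcon
    have := mul_lt_mul_of_pos_left (not_le.1 hcon) hP0
    linarith
  have h' : ∀ a : ℝ, 0 ≤ a → a ≤ 1 →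
      2 * s * v ≤ v - (a ^ 2 / 2 - a ^ 3 / 3 + a ^ 4 / 12) - v * (1 - a ^ 2) / 2 := by
    intro a h0 h1
    have h2 := h a h0 h1
    have h3 : 2 * s * (P * v) = P * (2 * s * v) := by ring
    have h4 : P * v - P * (a ^ 2 / 2 - a ^ 3 / 3 + a ^ 4 / 12) - P * v * (1 - a ^ 2) / 2 =
        P * (v - (a ^ 2 / 2 - a ^ 3 / 3 + a ^ 4 / 12) - v * (1 - a ^ 2) / 2) := by ring
    rw [h3, h4] at h2
    exact le_of_mul_le_mul_left h2 hP0
  have hv0 : 0 < v := by linarith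
  have hP2 : 240296 / 1000 < P ^ 2 := by nlinarith
  have key : s ^ 3 < 238716 / 10000000 * v := by
    rcases le_total 1 v with hv1 | hv1
    · have hs1 : s ≤ 1 / 4 := by
        have h2 := h' 0 le_rfl zero_le_one
        by_contra hcon
        have h3 := mul_lt_mul_of_pos_right (not_le.1 hcon) hv0
        norm_num at h2
        linarith
      have : s ^ 3 ≤ (1 / 4) ^ 3 := pow_le_pow_left₀ hs.le hs1 3
      norm_num at this
      linarith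
    · have hcont : ContinuousOn (fun a : ℝ => 1 - a + a ^ 2 / 3) (Set.Icc 0 1) := by fun_prop
      obtain ⟨a, ⟨ha0, ha1⟩, hav⟩ := intermediate_value_Icc' zero_le_one hcont
        (show v ∈ Set.Icc (1 - 1 + 1 ^ 2 / 3 : ℝ) (1 - 0 + 0 ^ 2 / 3) from
          ⟨by linarith, by linarith⟩)
      have hav' : 1 - a + a ^ 2 / 3 = v := hav
      have h2 := h' a ha0 ha1
      have h3 : 24 * s * v ≤ 6 * (1 - a + a ^ 2 / 3) - 2 * a ^ 3 + a ^ 4 := by
        have h4 : 12 * (v - (a ^ 2 / 2 - a ^ 3 / 3 + a ^ 4 / 12) - v * (1 - a ^ 2) / 2) =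
            6 * (1 - a + a ^ 2 / 3) - 2 * a ^ 3 + a ^ 4 := by
          rw [← hav']
          ring
        linarith
      have h5 := Num_poly ha0 ha1
      have h6 : (24 * s * v) ^ 3 ≤ (6 * (1 - a + a ^ 2 / 3) - 2 * a ^ 3 + a ^ 4) ^ 3 :=
        pow_le_pow_left₀ (by positivity) h3 3
      rw [hav'] at h5 h6
      have h7 : v ^ 3 * (13824 * s ^ 3) < v ^ 3 * (330 * v) := by
        have e1 : v ^ 3 * (13824 * s ^ 3) = (24 * s * v) ^ 3 := by ring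
        have e2 : v ^ 3 * (330 * v) = 330 * v ^ 4 := by ring
        rw [e1, e2]
        linarith
      have h8 : 13824 * s ^ 3 < 330 * v := lt_of_mul_lt_mul_left h7 (by positivity)
      linarith
  have h8 : s ^ 6 < (238716 / 10000000 * v) ^ 2 := by
    have h9 : s ^ 6 = (s ^ 3) ^ 2 := by ring
    rw [h9]
    exact pow_lt_pow_left₀ key (by positivity) (by norm_num)
  refine h8.trans_le ?_
  have h10 : 0 < v ^ 2 := by positivity
  have h11 := mul_lt_mul_of_pos_right hP2 h10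
  have h12 : (P * v) ^ 2 = P ^ 2 * v ^ 2 := by ring
  rw [h12]
  have h13 : (238716 / 10000000 * v) ^ 2 = (238716 / 10000000) ^ 2 * v ^ 2 := by ring
  rw [h13]
  have h14 : ((238716 / 10000000 : ℝ) ^ 2) * v ^ 2 ≤
      518400 / 215886856192 * (240296 / 1000) * v ^ 2 :=
    mul_le_mul_of_nonneg_right (by norm_num) h10.le
  linarith

end Vale.Agent.P254U
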