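import Vale.Agent.Lib.P254U.CX.Pos
import Vale.Agent.Lib.P254U.CX.Mono
import Vale.Agent.Lib.P254U.CX.Ball
import Vale.Agent.Lib.P254U.CX.Lay
import Vale.Agent.Lib.P254U.CX.Num

/-!
P254U/CX/Main: assembly.  `L, s` from `cx_pos`; `covM L 0 0 = covM L 1 1 = s` and `cen_zero` / `covM_form_sym`
(ZP/Bath.lean) give `∫_L (x_0^2 + x_1^2) = 2 s V`; `cx_bound` with `g(r) = π^2 (r - r^2/2)` (integral
`π^2 (a^2/2 - a^3/6)`), resp. `g(r) = (π^3/2)(r - r^2 + r^3/3)` (integral `(π^3/2)(a^2/2 - a^3/3 + a^4/12)`); the lower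
bound of `V` is `cx_ball4` / `cx_ball6` with `r = 1` and `DD L 1 ≤ V`.
`Rat L = (n+1) det((n+1)(n+2) s 1) / (n! V)^2 = (n+1)^(n+1) (n+2)^n s^n / (n! V)^2` (`SM`, `Matrix.det_smul`), for
`n = 4`: `5^5 6^4 s^4 / (24 V)^2 = (4050000/576) s^4 / V^2`; for `n = 6`: `7^7 8^6 s^6 / (720 V)^2`.
-/

open MeasureTheory Set

namespace Vale.Agent.P254U

private theorem main_cx_q {m : ℕ} {L : Set (Fin (m + 2) → ℝ)} (hL : ConvBody (m + 2) L)
    (hLs : ∀ x ∈ L, -x ∈ L) {s : ℝ}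
    (hcov : covM L = s • (1 : Matrix (Fin (m + 2)) (Fin (m + 2)) ℝ)) :
    ∫ x in L, (x 0 ^ 2 + x 1 ^ 2) = 2 * s * (volume L).toReal := by
  have hVpos : 0 < (volume L).toReal := convBody_vol_pos hL
  have e1 : ∀ i : Fin (m + 2), ∫ x in L, x i ^ 2 = s * (volume L).toReal := by
    intro i
    have e2 : covM L i i = s := by
      rw [hcov]
      simp
    have e3 : covM L i i = (∫ x in L, x i ^ 2) / (volume L).toReal := by
      unfold covM
      congr 1
      refine integral_congr_ae (Filter.Eventually.of_forall fun x => ?_)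
      simp only [cen_zero hL hLs, sub_zero]
      ring
    rw [e2] at e3
    rw [e3]
    field_simp
  have hint : ∀ i : Fin (m + 2), IntegrableOn (fun x : Fin (m + 2) → ℝ => x i ^ 2) L :=
    fun i => ((continuous_apply i).pow 2).continuousOn.integrableOn_compact hL.compact
  rw [integral_add (hint 0) (hint 1), e1, e1]
  ring

private theorem main_cx_DD {m : ℕ} {L : Set (Fin (m + 2) → ℝ)} (hL : ConvBody (m + 2) L) (r : ℝ) :
    DD L r ≤ (volume L).toReal :=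
  ENNReal.toReal_mono hL.compact.measure_lt_top.ne (measure_mono fun _ hx => hx.1)

private theorem main_cx_int4 (a : ℝ) :
    ∫ r in (0 : ℝ)..a, Real.pi ^ 2 * (r - r ^ 2 / 2) = Real.pi ^ 2 * (a ^ 2 / 2 - a ^ 3 / 6) := by
  have h1 : ∀ r ∈ Set.uIcc 0 a, HasDerivAt
      (fun r : ℝ => Real.pi ^ 2 * (r ^ 2 / 2 - r ^ 3 / 6)) (Real.pi ^ 2 * (r - r ^ 2 / 2)) r := by
    intro r _
    have h2 := (((hasDerivAt_pow 2 r).div_const 2).sub ((hasDerivAt_pow 3 r).div_const 6)).const_mul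
      (Real.pi ^ 2)
    refine h2.congr_deriv ?_
    push_cast
    ring
  rw [intervalIntegral.integral_eq_sub_of_hasDerivAt h1
    (Continuous.intervalIntegrable (by fun_prop) _ _)]
  ring

private theorem main_cx_int6 (a : ℝ) :
    ∫ r in (0 : ℝ)..a, Real.pi ^ 3 / 2 * (r - r ^ 2 + r ^ 3 / 3) =
      Real.pi ^ 3 / 2 * (a ^ 2 / 2 - a ^ 3 / 3 + a ^ 4 / 12) := by
  have h1 : ∀ r ∈ Set.uIcc 0 a, HasDerivAt
      (fun r : ℝ => Real.pi ^ 3 / 2 * (r ^ 2 / 2 - r ^ 3 / 3 + r ^ 4 / 12))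
      (Real.pi ^ 3 / 2 * (r - r ^ 2 + r ^ 3 / 3)) r := by
    intro r _
    have h2 := ((((hasDerivAt_pow 2 r).div_const 2).sub ((hasDerivAt_pow 3 r).div_const 3)).add
      ((hasDerivAt_pow 4 r).div_const 12)).const_mul (Real.pi ^ 3 / 2)
    refine h2.congr_deriv ?_
    push_cast
    ring
  rw [intervalIntegral.integral_eq_sub_of_hasDerivAt h1
    (Continuous.intervalIntegrable (by fun_prop) _ _)]
  ring

theorem rat_complex4 {K : Set (Fin 4 → ℝ)} (hK : ConvBody 4 K) {J : Matrix (Fin 4) (Fin 4) ℝ}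
    (hJ : J * J = -1)
    (hinv : ∀ x ∈ K, ∀ a b : ℝ, a ^ 2 + b ^ 2 = 1 → a • x + b • J.mulVec x ∈ K) : Rat K < 1 := by
  obtain ⟨L, hL, hLs, hRat, hB, h1, s, hs0, hcov⟩ := cx_pos (m := 2) hK hJ hinv
  rw [← hRat]
  have hVpos : 0 < (volume L).toReal := convBody_vol_pos hL
  have hq := main_cx_q hL hLs hcov
  have hb : ∀ a : ℝ, 0 ≤ a → a ≤ 1 → 2 * s * (volume L).toReal ≤
      (volume L).toReal - Real.pi ^ 2 * (a ^ 2 / 2 - a ^ 3 / 6) -
        (volume L).toReal * (1 - a ^ 2) / 2 := by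
    intro a ha0 ha1
    have h2 := cx_bound hL h1 (fun r hr0 hr1 => cx_mono (by norm_num) hL hLs h1 hr0 hr1)
      (g := fun r => Real.pi ^ 2 * (r - r ^ 2 / 2)) (by fun_prop)
      (fun r hr0 hr1 => cx_ball4 hL hB hr0 hr1) ha0 ha1
    rw [hq, main_cx_int4] at h2
    exact h2
  have hV : Real.pi ^ 2 / 2 ≤ (volume L).toReal := by
    have h2 := (cx_ball4 hL hB zero_le_one le_rfl).trans (main_cx_DD hL 1)
    linarith
  have hnum := num4 hV hs0 hb
  have hdet := det_covM_eq_Rat hL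
  have hdet2 : (covM L).det = s ^ 4 := by
    rw [hcov, Matrix.det_smul, Matrix.det_one, mul_one, Fintype.card_fin]
  rw [hdet2] at hdet
  have hV2 : 0 < (volume L).toReal ^ 2 := by positivity
  rw [div_eq_iff hV2.ne'] at hdet
  rw [hdet] at hnum
  norm_num [Nat.factorial] at hnum
  nlinarith

theorem rat_complex6 {K : Set (Fin 6 → ℝ)} (hK : ConvBody 6 K) {J : Matrix (Fin 6) (Fin 6) ℝ}
    (hJ : J * J = -1)
    (hinv : ∀ x ∈ K, ∀ a b : ℝ, a ^ 2 + b ^ 2 = 1 → a • x + b • J.mulVec x ∈ K) : Rat K < 1 := by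
  obtain ⟨L, hL, hLs, hRat, hB, h1, s, hs0, hcov⟩ := cx_pos (m := 4) hK hJ hinv
  rw [← hRat]
  have hVpos : 0 < (volume L).toReal := convBody_vol_pos hL
  have hq := main_cx_q hL hLs hcov
  have hb : ∀ a : ℝ, 0 ≤ a → a ≤ 1 → 2 * s * (volume L).toReal ≤
      (volume L).toReal - Real.pi ^ 3 / 2 * (a ^ 2 / 2 - a ^ 3 / 3 + a ^ 4 / 12) -
        (volume L).toReal * (1 - a ^ 2) / 2 := by
    intro a ha0 ha1
    have h2 := cx_bound hL h1 (fun r hr0 hr1 => cx_mono (by norm_num) hL hLs h1 hr0 hr1)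
      (g := fun r => Real.pi ^ 3 / 2 * (r - r ^ 2 + r ^ 3 / 3)) (by fun_prop)
      (fun r hr0 hr1 => cx_ball6 hL hB hr0 hr1) ha0 ha1
    rw [hq, main_cx_int6] at h2
    exact h2
  have hV : Real.pi ^ 3 / 6 ≤ (volume L).toReal := by
    have h2 := (cx_ball6 hL hB zero_le_one le_rfl).trans (main_cx_DD hL 1)
    linarith
  have hnum := num6 hV hs0 hb
  have hdet := det_covM_eq_Rat hL
  have hdet2 : (covM L).det = s ^ 6 := by
    rw [hcov, Matrix.det_smul, Matrix.det_one, mul_one, Fintype.card_fin]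
  rw [hdet2] at hdet
  have hV2 : 0 < (volume L).toReal ^ 2 := by positivity
  rw [div_eq_iff hV2.ne'] at hdet
  rw [hdet] at hnum
  norm_num [Nat.factorial] at hnum
  nlinarith

end Vale.Agent.P254U
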