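import Mathlib

/-!
P254U/CX/Orth: an orthogonal matrix with two prescribed orthonormal rows.
Apply `Orthonormal.exists_orthonormalBasis_extension_of_card_eq` (index type `Fin (m+2)`, the set `{0,1}`) in
`EuclideanSpace ℝ (Fin (m+2))`; the rows of `O` are the basis vectors.  Or two Householder reflections
(`exists_orth` in SY/Rot.lean gives the first row; then the same in the orthogonal complement).
-/

namespace Vale.Agent.P254U

theorem Orth_inner {n : ℕ} (x y : EuclideanSpace ℝ (Fin n)) :
    inner ℝ x y = ∑ i, x i * y i := by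
  rw [PiLp.inner_apply]
  refine Finset.sum_congr rfl fun i _ => ?_
  simp [mul_comm]

theorem exists_orth2 {m : ℕ} {u w : Fin (m + 2) → ℝ} (hu : ∑ i, u i ^ 2 = 1)
    (hw : ∑ i, w i ^ 2 = 1) (huw : ∑ i, u i * w i = 0) :
    ∃ O : Matrix (Fin (m + 2)) (Fin (m + 2)) ℝ, O * O.transpose = 1 ∧
      ∀ x : Fin (m + 2) → ℝ, O.mulVec x 0 = ∑ i, u i * x i ∧ O.mulVec x 1 = ∑ i, w i * x i := by
  classical
  let v : Fin (m + 2) → EuclideanSpace ℝ (Fin (m + 2)) :=
    fun i => if i = 0 then WithLp.toLp 2 u else WithLp.toLp 2 w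
  have h01 : (1 : Fin (m + 2)) ≠ 0 := by
    intro h
    have := congrArg Fin.val h
    simp at this
  have hv0 : v 0 = WithLp.toLp 2 u := by simp [v]
  have hv1 : v 1 = WithLp.toLp 2 w := by simp [v, h01]
  let s : Set (Fin (m + 2)) := {0, 1}
  have hv : Orthonormal ℝ (s.domRestrict v) := by
    rw [orthonormal_iff_ite]
    rintro ⟨i, hi⟩ ⟨j, hj⟩
    have hi' : i = 0 ∨ i = 1 := by simpa [s] using hi
    have hj' : j = 0 ∨ j = 1 := by simpa [s] using hj
    simp only [Set.domRestrict_apply, Subtype.mk.injEq]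
    rcases hi' with rfl | rfl <;> rcases hj' with rfl | rfl
    · rw [hv0, Orth_inner]; simpa [pow_two] using hu
    · rw [hv0, hv1, Orth_inner, if_neg h01.symm]; simpa using huw
    · rw [hv0, hv1, Orth_inner, if_neg h01]
      rw [← huw]
      exact Finset.sum_congr rfl fun k _ => by simp [mul_comm]
    · rw [hv1, Orth_inner]; simpa [pow_two] using hw
  obtain ⟨b, hb⟩ := Orthonormal.exists_orthonormalBasis_extension_of_card_eq
    (ι := Fin (m + 2)) (𝕜 := ℝ) (E := EuclideanSpace ℝ (Fin (m + 2))) (by simp) hv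
  refine ⟨Matrix.of fun i j => b i j, ?_, ?_⟩
  · ext i j
    rw [Matrix.mul_apply]
    simp only [Matrix.of_apply, Matrix.transpose_apply]
    rw [← Orth_inner (b i) (b j), orthonormal_iff_ite.mp b.orthonormal i j, Matrix.one_apply]
  · intro x
    have hb0 : b 0 = WithLp.toLp 2 u := by rw [← hv0]; exact hb 0 (by simp [s])
    have hb1 : b 1 = WithLp.toLp 2 w := by rw [← hv1]; exact hb 1 (by simp [s])
    constructor
    · simp only [Matrix.mulVec, dotProduct, Matrix.of_apply, hb0]
    · simp only [Matrix.mulVec, dotProduct, Matrix.of_apply, hb1]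

end Vale.Agent.P254U
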