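import Vale.Agent.Lib.P254U.CX.Orth
import Vale.Agent.Lib.P254U.CX.Equi
import Vale.Agent.Lib.P254U.SY.Touch
import Vale.Agent.Lib.P254U.SY.Pos

/-!
P254U/CX/Pos: the position.  Follow SY/Pos.lean.  `K₁, J'` from `exists_unitary_pos`; `K₁ = -K₁` (`a = -1, b = 0`);
`u, r` from `exists_touch`; `w = J'ᵀ u` (`= -J' u`): `|w| = 1`, `⟨u, w⟩ = 0` (`⟨u, J' u⟩ = ⟨J' u, J' J' u⟩ = -⟨u, J' u⟩`);
`⟨w, x⟩ = ⟨u, J' x⟩`, so `a ⟨u,x⟩ + b ⟨w,x⟩ = ⟨u, a x + b J' x⟩ ≤ r` for `x ∈ K₁`, `a^2 + b^2 = 1`, hence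
`⟨u,x⟩^2 + ⟨w,x⟩^2 ≤ r^2` (take `(a,b)` proportional to `(⟨u,x⟩, ⟨w,x⟩)`).  `O` from `exists_orth2`,
`L = (r⁻¹ • O) K₁`.
-/

open MeasureTheory Set

namespace Vale.Agent.P254U

variable {m : ℕ}

private theorem Pos_dot {n : ℕ} (J : Matrix (Fin n) (Fin n) ℝ) (u x : Fin n → ℝ) :
    ∑ i, J.transpose.mulVec u i * x i = ∑ i, u i * J.mulVec x i := by
  have h : J.transpose.mulVec u ⬝ᵥ x = u ⬝ᵥ J.mulVec x := by
    rw [Matrix.dotProduct_mulVec, Matrix.mulVec_transpose]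
  exact h

theorem cx_pos {K : Set (Fin (m + 2) → ℝ)} (hK : ConvBody (m + 2) K)
    {J : Matrix (Fin (m + 2)) (Fin (m + 2)) ℝ} (hJ : J * J = -1)
    (hinv : ∀ x ∈ K, ∀ a b : ℝ, a ^ 2 + b ^ 2 = 1 → a • x + b • J.mulVec x ∈ K) :
    ∃ L : Set (Fin (m + 2) → ℝ), ConvBody (m + 2) L ∧ (∀ x ∈ L, -x ∈ L) ∧ Rat L = Rat K ∧
      eball (m + 2) ⊆ L ∧ (∀ x ∈ L, x 0 ^ 2 + x 1 ^ 2 ≤ 1) ∧
      ∃ s : ℝ, 0 < s ∧ covM L = s • (1 : Matrix (Fin (m + 2)) (Fin (m + 2)) ℝ) := by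
  have hn : 1 ≤ m + 2 := by omega
  obtain ⟨K₁, J', hK1, hR1, hC1, hJJ, hJT, hinv1⟩ := exists_unitary_pos hn hK hJ hinv
  have hs1 : ∀ x ∈ K₁, -x ∈ K₁ := by
    intro x hx
    have h := hinv1 x hx (-1) 0 (by norm_num)
    rwa [zero_smul, add_zero, neg_smul, one_smul] at h
  obtain ⟨u, hu, r, hr, hur, hball⟩ := exists_touch hn hK1 hs1
  have hT : J'.transpose = -J' := by
    have h1 : -J' = -J' * (J' * J'.transpose) := by rw [hJT, Matrix.mul_one]
    rw [h1, ← Matrix.mul_assoc, Matrix.neg_mul, hJJ, neg_neg, Matrix.one_mul]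
  set w : Fin (m + 2) → ℝ := J'.transpose.mulVec u with hw
  have hwx : ∀ x : Fin (m + 2) → ℝ, ∑ i, w i * x i = ∑ i, u i * J'.mulVec x i := fun x =>
    Pos_dot J' u x
  have hw1 : ∑ i, w i ^ 2 = 1 := by
    have h1 : ∑ i, w i ^ 2 = ∑ i, w i * w i := Finset.sum_congr rfl fun i _ => sq (w i)
    rw [h1, hwx w, hw, Matrix.mulVec_mulVec, hJT, Matrix.one_mulVec, ← hu]
    exact Finset.sum_congr rfl fun i _ => (sq (u i)).symm
  have huw : ∑ i, u i * w i = 0 := by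
    have h1 : ∑ i, u i * w i = ∑ i, w i * u i := Finset.sum_congr rfl fun i _ => mul_comm _ _
    have h2 : ∑ i, u i * w i = -∑ i, u i * J'.mulVec u i := by
      rw [hw, hT, ← Finset.sum_neg_distrib]
      refine Finset.sum_congr rfl fun i _ => ?_
      rw [Matrix.neg_mulVec, Pi.neg_apply, mul_neg]
    have h3 := hwx u
    linarith
  obtain ⟨O, hO, hOu⟩ := exists_orth2 hu hw1 huw
  have hdO : O.det ≠ 0 := by
    intro h
    have h1 := congrArg Matrix.det hO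
    rw [Matrix.det_mul, h, zero_mul, Matrix.det_one] at h1
    exact zero_ne_one h1
  have hdN : (r⁻¹ • O).det ≠ 0 := by
    rw [Matrix.det_smul]
    exact mul_ne_zero (pow_ne_zero _ (inv_ne_zero hr.ne')) hdO
  obtain ⟨hK2, hR2, hC2⟩ := lin_image hn hK1 (r⁻¹ • O) hdN
  refine ⟨(fun x => (r⁻¹ • O).mulVec x) '' K₁, hK2, ?_, hR2.trans hR1, ?_, ?_,
    r⁻¹ * r⁻¹, by positivity, ?_⟩
  · rintro _ ⟨x, hx, rfl⟩
    exact ⟨-x, hs1 x hx, Matrix.mulVec_neg x _⟩
  · intro x hx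
    have hx1 : ∑ i, x i ^ 2 ≤ 1 := hx
    have e1 : O.mulVec (O.transpose.mulVec x) = x := by
      rw [Matrix.mulVec_mulVec, hO, Matrix.one_mulVec]
    refine ⟨r • O.transpose.mulVec x, hball _ ?_, ?_⟩
    · have e2 : ∑ i, (r • O.transpose.mulVec x) i ^ 2 =
          r ^ 2 * (O.transpose.mulVec x ⬝ᵥ O.transpose.mulVec x) := by
        unfold dotProduct
        rw [Finset.mul_sum]
        refine Finset.sum_congr rfl fun i _ => ?_
        rw [Pi.smul_apply, smul_eq_mul]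
        ring
      have e3 : O.transpose.mulVec x ⬝ᵥ O.transpose.mulVec x = ∑ i, x i ^ 2 := by
        conv_lhs =>
          rw [show O.transpose.mulVec x = Matrix.vecMul x O from Matrix.mulVec_transpose O x]
        rw [← Matrix.dotProduct_mulVec, ← Matrix.mulVec_transpose, e1]
        unfold dotProduct
        exact Finset.sum_congr rfl fun i _ => (sq (x i)).symm
      rw [e2, e3]
      nlinarith [sq_nonneg r]
    · change (r⁻¹ • O).mulVec (r • O.transpose.mulVec x) = x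
      rw [Matrix.smul_mulVec, Matrix.mulVec_smul, e1, smul_smul, inv_mul_cancel₀ hr.ne', one_smul]
  · rintro _ ⟨y, hy, rfl⟩
    change (r⁻¹ • O).mulVec y 0 ^ 2 + (r⁻¹ • O).mulVec y 1 ^ 2 ≤ 1
    rw [Matrix.smul_mulVec, Pi.smul_apply, Pi.smul_apply, smul_eq_mul, smul_eq_mul, (hOu y).1,
      (hOu y).2]
    set A : ℝ := ∑ i, u i * y i with hA
    set B : ℝ := ∑ i, w i * y i with hB
    have hS : A ^ 2 + B ^ 2 ≤ r ^ 2 := by
      rcases (add_nonneg (sq_nonneg A) (sq_nonneg B)).eq_or_lt with h0 | h0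
      · rw [← h0]
        positivity
      · set N : ℝ := Real.sqrt (A ^ 2 + B ^ 2) with hN
        have hNpos : 0 < N := Real.sqrt_pos.2 h0
        have hN2 : N ^ 2 = A ^ 2 + B ^ 2 := Real.sq_sqrt h0.le
        have hab : (A / N) ^ 2 + (B / N) ^ 2 = 1 := by
          rw [div_pow, div_pow, ← add_div, ← hN2]
          exact div_self (by positivity)
        have h1 := hur _ (hinv1 y hy (A / N) (B / N) hab)
        have h2 : ∑ i, u i * ((A / N) • y + (B / N) • J'.mulVec y) i =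
            (A / N) * A + (B / N) * ∑ i, u i * J'.mulVec y i := by
          rw [hA, Finset.mul_sum, Finset.mul_sum, ← Finset.sum_add_distrib]
          refine Finset.sum_congr rfl fun i _ => ?_
          rw [Pi.add_apply, Pi.smul_apply, Pi.smul_apply, smul_eq_mul, smul_eq_mul]
          ring
        rw [h2, ← hwx y, ← hB] at h1
        have h3 : A / N * A + B / N * B = N := by
          have h4 : A / N * A + B / N * B = (A ^ 2 + B ^ 2) / N := by ring
          rw [h4, ← hN2, sq, mul_div_assoc, div_self hNpos.ne', mul_one]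
        rw [h3] at h1
        rw [← hN2]
        exact pow_le_pow_left₀ hNpos.le h1 2
    have h5 : (r⁻¹ * A) ^ 2 + (r⁻¹ * B) ^ 2 = (A ^ 2 + B ^ 2) / r ^ 2 := by
      field_simp
    rw [h5, div_le_one (by positivity)]
    exact hS
  · rw [hC2, hC1, Matrix.mul_one, Matrix.transpose_smul, Matrix.smul_mul, Matrix.mul_smul, hO,
      smul_smul]

end Vale.Agent.P254U
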